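import Mathlib

universe u

namespace Vale.Agent.P096

/-- The Kadison–Kastler distance: the Hausdorff distance of the closed unit balls. -/
noncomputable def kkDist {H : Type u} [NormedAddCommGroup H] [InnerProductSpace ℂ H]
    [CompleteSpace H] (M N : VonNeumannAlgebra H) : ℝ :=
  Metric.hausdorffDist ((M : Set (H →L[ℂ] H)) ∩ Metric.closedBall 0 1)
    ((N : Set (H →L[ℂ] H)) ∩ Metric.closedBall 0 1)

/-- `N = u M u*` for some unitary `u` with `‖u - 1‖ < ε`. -/
def NearConjugate {H : Type u} [NormedAddCommGroup H] [InnerProductSpace ℂ H]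
    [CompleteSpace H] (ε : ℝ) (M N : VonNeumannAlgebra H) : Prop :=
  ∃ w ∈ unitary (H →L[ℂ] H), ‖w - 1‖ < ε ∧
    (fun x => w * x * star w) '' (M : Set (H →L[ℂ] H)) = (N : Set (H →L[ℂ] H))

/-- The strong Kadison–Kastler conjecture: `δ` depends only on `ε`. -/
def UniformKK : Prop :=
  ∀ ε : ℝ, 0 < ε → ∃ δ : ℝ, 0 < δ ∧ ∀ (H : Type u) [NormedAddCommGroup H]
    [InnerProductSpace ℂ H] [CompleteSpace H] (M N : VonNeumannAlgebra H),
      kkDist M N < δ → NearConjugate ε M N

/-- The form in which `δ` may depend on `M`. -/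
def PerAlgebraKK : Prop :=
  ∀ ε : ℝ, 0 < ε → ∀ (H : Type u) [NormedAddCommGroup H]
    [InnerProductSpace ℂ H] [CompleteSpace H] (M : VonNeumannAlgebra H),
      ∃ δ : ℝ, 0 < δ ∧ ∀ N : VonNeumannAlgebra H, kkDist M N < δ → NearConjugate ε M N

/-- `UniformKK` restricted to separable Hilbert spaces. -/
def UniformKKSep : Prop :=
  ∀ ε : ℝ, 0 < ε → ∃ δ : ℝ, 0 < δ ∧ ∀ (H : Type u) [NormedAddCommGroup H]
    [InnerProductSpace ℂ H] [CompleteSpace H] [TopologicalSpace.SeparableSpace H]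
    (M N : VonNeumannAlgebra H), kkDist M N < δ → NearConjugate ε M N

/-- `PerAlgebraKK` restricted to separable Hilbert spaces. -/
def PerAlgebraKKSep : Prop :=
  ∀ ε : ℝ, 0 < ε → ∀ (H : Type u) [NormedAddCommGroup H]
    [InnerProductSpace ℂ H] [CompleteSpace H] [TopologicalSpace.SeparableSpace H]
    (M : VonNeumannAlgebra H),
      ∃ δ : ℝ, 0 < δ ∧ ∀ N : VonNeumannAlgebra H, kkDist M N < δ → NearConjugate ε M N

end Vale.Agent.P096
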