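import Vale.Agent.P096.Defs

/-!
The von Neumann algebra of block diagonal operators on a countable Hilbert sum.
-/

noncomputable section

universe u

namespace Vale.Agent.P096

open scoped InnerProductSpace
open ContinuousLinearMap

variable {H : ℕ → Type u} [∀ k, NormedAddCommGroup (H k)] [∀ k, InnerProductSpace ℂ (H k)]
  [∀ k, CompleteSpace (H k)]

/-- The Hilbert sum. -/
abbrev HSum (H : ℕ → Type u) [∀ k, NormedAddCommGroup (H k)] : Type u := lp H 2

variable (H) in
/-- The inclusion of a summand. -/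
def inc (k : ℕ) : H k →L[ℂ] HSum H := lp.singleContinuousLinearMap ℂ H 2 k

variable (H) in
/-- The coordinate map. -/
def crd (k : ℕ) : HSum H →L[ℂ] H k := lp.evalCLM ℂ H 2 k

lemma inc_apply_coe (k j : ℕ) (a : H k) : (inc H k a) j = Pi.single k a j := by
  simp [inc, lp.coeFn_single]

lemma crd_inc_self (k : ℕ) (a : H k) : crd H k (inc H k a) = a := by
  show (inc H k a) k = a
  rw [inc_apply_coe, Pi.single_eq_same]

lemma crd_inc_ne {k j : ℕ} (h : j ≠ k) (a : H k) : crd H j (inc H k a) = 0 := by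
  show (inc H k a) j = 0
  rw [inc_apply_coe, Pi.single_eq_of_ne h]

lemma inner_inc_left (k : ℕ) (a : H k) (v : HSum H) :
    ⟪inc H k a, v⟫_ℂ = ⟪a, crd H k v⟫_ℂ :=
  lp.inner_single_left k a v

lemma inner_inc_right (k : ℕ) (a : H k) (v : HSum H) :
    ⟪v, inc H k a⟫_ℂ = ⟪crd H k v, a⟫_ℂ := by
  rw [← inner_conj_symm, inner_inc_left, inner_conj_symm]

lemma norm_inc (k : ℕ) (a : H k) : ‖inc H k a‖ = ‖a‖ :=
  lp.norm_single (by norm_num) k a

lemma norm_crd_le (k : ℕ) (v : HSum H) : ‖crd H k v‖ ≤ ‖v‖ :=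
  lp.norm_apply_le_norm (by norm_num) v k

variable (H) in
/-- The projection on a summand. -/
def proj (k : ℕ) : HSum H →L[ℂ] HSum H := inc H k ∘L crd H k

lemma proj_apply (k : ℕ) (v : HSum H) : proj H k v = inc H k (crd H k v) := rfl

lemma star_proj (k : ℕ) : star (proj H k) = proj H k := by
  symm
  rw [star_eq_adjoint, eq_adjoint_iff]
  intro v w
  rw [proj_apply, proj_apply, inner_inc_left, inner_inc_right]

/-- A diagonal block of an operator. -/
def blk (k : ℕ) (T : HSum H →L[ℂ] HSum H) : H k →L[ℂ] H k := crd H k ∘L T ∘L inc H k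

/-- An operator supported in one block. -/
def emb (k : ℕ) (a : H k →L[ℂ] H k) : HSum H →L[ℂ] HSum H := inc H k ∘L a ∘L crd H k

lemma blk_apply (k : ℕ) (T : HSum H →L[ℂ] HSum H) (a : H k) :
    blk k T a = crd H k (T (inc H k a)) := rfl

lemma emb_apply (k : ℕ) (a : H k →L[ℂ] H k) (v : HSum H) :
    emb k a v = inc H k (a (crd H k v)) := rfl

lemma blk_emb_self (k : ℕ) (a : H k →L[ℂ] H k) : blk k (emb k a) = a := by
  ext v; simp [blk_apply, emb_apply, crd_inc_self]

lemma blk_emb_ne {k j : ℕ} (h : j ≠ k) (a : H k →L[ℂ] H k) : blk j (emb k a) = 0 := by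
  ext v; simp [blk_apply, emb_apply, crd_inc_ne h]

lemma blk_add (k : ℕ) (S T : HSum H →L[ℂ] HSum H) : blk k (S + T) = blk k S + blk k T := by
  ext v; simp [blk_apply]

lemma blk_sub (k : ℕ) (S T : HSum H →L[ℂ] HSum H) : blk k (S - T) = blk k S - blk k T := by
  ext v; simp [blk_apply]

lemma blk_one (k : ℕ) : blk k (1 : HSum H →L[ℂ] HSum H) = 1 := by
  ext v; simp [blk_apply, crd_inc_self]

lemma blk_star (k : ℕ) (T : HSum H →L[ℂ] HSum H) : blk k (star T) = star (blk k T) := by
  rw [star_eq_adjoint, star_eq_adjoint, eq_adjoint_iff]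
  intro v w
  rw [blk_apply, blk_apply, ← inner_inc_right, adjoint_inner_left, inner_inc_left]

lemma norm_blk_le (k : ℕ) (T : HSum H →L[ℂ] HSum H) : ‖blk k T‖ ≤ ‖T‖ := by
  refine opNorm_le_bound _ (norm_nonneg _) fun v => ?_
  calc ‖blk k T v‖ ≤ ‖T (inc H k v)‖ := norm_crd_le k _
    _ ≤ ‖T‖ * ‖inc H k v‖ := le_opNorm T _
    _ = ‖T‖ * ‖v‖ := by rw [norm_inc]

lemma norm_emb_le (k : ℕ) (a : H k →L[ℂ] H k) : ‖emb k a‖ ≤ ‖a‖ := by
  refine opNorm_le_bound _ (norm_nonneg _) fun v => ?_
  rw [emb_apply, norm_inc]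
  exact (le_opNorm a _).trans (mul_le_mul_of_nonneg_left (norm_crd_le k v) (norm_nonneg _))

lemma proj_inc_self (k : ℕ) (a : H k) : proj H k (inc H k a) = inc H k a := by
  rw [proj_apply, crd_inc_self]

lemma crd_comm {k : ℕ} {T : HSum H →L[ℂ] HSum H} (h : Commute (proj H k) T) (v : HSum H) :
    crd H k (T v) = blk k T (crd H k v) := by
  have := congrArg (crd H k) (DFunLike.congr_fun h.eq v)
  simpa [proj_apply, crd_inc_self, blk_apply] using this

lemma apply_inc_comm {k : ℕ} {T : HSum H →L[ℂ] HSum H} (h : Commute (proj H k) T) (a : H k) :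
    T (inc H k a) = inc H k (blk k T a) := by
  have := DFunLike.congr_fun h.eq (inc H k a)
  simp only [mul_apply_eq_comp, proj_inc_self] at this
  rw [← this, proj_apply, blk_apply]

lemma blk_mul_left {k : ℕ} {S T : HSum H →L[ℂ] HSum H} (h : Commute (proj H k) S) :
    blk k (S * T) = blk k S * blk k T := by
  ext v
  simp only [blk_apply, mul_apply_eq_comp]
  rw [crd_comm h]
  rfl

lemma blk_mul_right {k : ℕ} {S T : HSum H →L[ℂ] HSum H} (h : Commute (proj H k) T) :
    blk k (S * T) = blk k S * blk k T := by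
  ext v
  simp only [blk_apply, mul_apply_eq_comp]
  rw [apply_inc_comm h, crd_inc_self]

lemma commute_proj_emb (j k : ℕ) (a : H k →L[ℂ] H k) : Commute (proj H j) (emb k a) := by
  ext1 v
  rcases eq_or_ne j k with rfl | h
  · simp [proj_apply, emb_apply, crd_inc_self]
  · simp [proj_apply, emb_apply, crd_inc_ne h, crd_inc_ne h.symm]

lemma emb_comm {k : ℕ} {T : HSum H →L[ℂ] HSum H} (h : Commute (proj H k) T)
    {a : H k →L[ℂ] H k} (ha : a * blk k T = blk k T * a) : emb k a * T = T * emb k a := by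
  ext1 v
  simp only [mul_apply_eq_comp, emb_apply]
  rw [crd_comm h, apply_inc_comm h]
  exact congrArg (inc H k) (DFunLike.congr_fun ha (crd H k v))

lemma blk_comm_of_emb_comm {k : ℕ} {T : HSum H →L[ℂ] HSum H} {a : H k →L[ℂ] H k}
    (h : emb k a * T = T * emb k a) : a * blk k T = blk k T * a := by
  ext v
  have := congrArg (crd H k) (DFunLike.congr_fun h (inc H k v))
  simpa [emb_apply, crd_inc_self, blk_apply] using this

/-- The von Neumann algebra of operators commuting with a set and its adjoints. -/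
def vnCentralizer {K : Type u} [NormedAddCommGroup K] [InnerProductSpace ℂ K] [CompleteSpace K]
    (G : Set (K →L[ℂ] K)) : VonNeumannAlgebra K where
  toStarSubalgebra := StarSubalgebra.centralizer ℂ G
  centralizer_centralizer' := by simp

lemma mem_vnCentralizer {K : Type u} [NormedAddCommGroup K] [InnerProductSpace ℂ K]
    [CompleteSpace K] {G : Set (K →L[ℂ] K)} {T : K →L[ℂ] K} :
    T ∈ vnCentralizer G ↔ ∀ g ∈ G, g * T = T * g ∧ star g * T = T * star g :=
  StarSubalgebra.mem_centralizer_iff ℂ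

/-- The direct sum of a family of von Neumann algebras. -/
def dsum (A : ∀ k, VonNeumannAlgebra (H k)) : VonNeumannAlgebra (HSum H) :=
  vnCentralizer (Set.range (proj H) ∪ ⋃ k, emb k '' ((A k).commutant : Set (H k →L[ℂ] H k)))

lemma star_emb (k : ℕ) (a : H k →L[ℂ] H k) : star (emb k a) = emb k (star a) := by
  symm
  rw [star_eq_adjoint, star_eq_adjoint, eq_adjoint_iff]
  intro v w
  rw [emb_apply, emb_apply, inner_inc_left, inner_inc_right, adjoint_inner_left]

lemma mem_dsum {A : ∀ k, VonNeumannAlgebra (H k)} {T : HSum H →L[ℂ] HSum H} :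
    T ∈ dsum A ↔ ∀ k, Commute (proj H k) T ∧ blk k T ∈ A k := by
  rw [dsum, mem_vnCentralizer]
  constructor
  · intro h k
    refine ⟨(h _ (Or.inl ⟨k, rfl⟩)).1, ?_⟩
    rw [← (A k).commutant_commutant, VonNeumannAlgebra.mem_commutant_iff]
    intro a ha
    exact blk_comm_of_emb_comm (h _ (Or.inr (Set.mem_iUnion.2 ⟨k, a, ha, rfl⟩))).1
  · rintro h g (⟨k, rfl⟩ | hg)
    · rw [star_proj]
      exact ⟨(h k).1, (h k).1⟩
    · obtain ⟨k, a, ha, rfl⟩ := Set.mem_iUnion.1 hg
      have hc : ∀ b ∈ (A k).commutant, b * blk k T = blk k T * b := fun b hb =>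
        (VonNeumannAlgebra.mem_commutant_iff.1 hb _ (h k).2).symm
      refine ⟨emb_comm (h k).1 (hc a ha), ?_⟩
      rw [star_emb]
      exact emb_comm (h k).1 (hc _ (star_mem ha))

lemma emb_mem_dsum {A : ∀ k, VonNeumannAlgebra (H k)} {k : ℕ} {a : H k →L[ℂ] H k}
    (ha : a ∈ A k) : emb k a ∈ dsum A := by
  rw [mem_dsum]
  intro j
  refine ⟨commute_proj_emb j k a, ?_⟩
  rcases eq_or_ne j k with rfl | h
  · rwa [blk_emb_self]
  · rw [blk_emb_ne h]; exact zero_mem _

lemma proj_eq_emb (k : ℕ) : proj H k = emb k 1 := by ext1 v; rfl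

/-- The Hilbert sum of countably many separable spaces is separable. -/
lemma separableSpace_hsum [∀ k, TopologicalSpace.SeparableSpace (H k)] :
    TopologicalSpace.SeparableSpace (HSum H) := by
  rw [← TopologicalSpace.isSeparable_univ_iff]
  have hS : TopologicalSpace.IsSeparable (⋃ k, Set.range (inc H k)) :=
    TopologicalSpace.IsSeparable.iUnion fun k => TopologicalSpace.isSeparable_range (inc H k).continuous
  refine ((hS.span (R := ℂ)).closure).mono fun v _ => ?_
  have hv : HasSum (fun k => lp.single 2 k (v k)) v := lp.hasSum_single (by norm_num) v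
  refine mem_closure_of_tendsto hv (Filter.Eventually.of_forall fun s => ?_)
  refine Submodule.sum_mem _ fun k _ => Submodule.subset_span ?_
  exact Set.mem_iUnion.2 ⟨k, v k, rfl⟩

end Vale.Agent.P096
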