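import Vale.Agent.P096.DirectSum

/-!
Passing from a distance threshold depending on the algebra to a uniform one.
-/

noncomputable section

universe u

namespace Vale.Agent.P096

open scoped InnerProductSpace
open ContinuousLinearMap

variable {H : ℕ → Type u} [∀ k, NormedAddCommGroup (H k)] [∀ k, InnerProductSpace ℂ (H k)]
  [∀ k, CompleteSpace (H k)]

/-- Replacing one block of a contraction by a contraction gives a contraction. -/
lemma norm_replace_le {k : ℕ} {x : HSum H →L[ℂ] HSum H} (hc : Commute (proj H k) x)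
    (hx : ‖x‖ ≤ 1) {y : H k →L[ℂ] H k} (hy : ‖y‖ ≤ 1) : ‖x + emb k (y - blk k x)‖ ≤ 1 := by
  refine opNorm_le_bound _ zero_le_one fun v => ?_
  rw [one_mul]
  set w := v - inc H k (crd H k v) with hw
  have hw0 : crd H k w = 0 := by simp [hw, crd_inc_self]
  have hxw : crd H k (x w) = 0 := by rw [crd_comm hc, hw0, map_zero]
  have e : (x + emb k (y - blk k x)) v = inc H k (y (crd H k v)) + x w := by
    simp only [add_apply, emb_apply, sub_apply, map_sub, hw]
    rw [apply_inc_comm hc]
    abel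
  have ev : v = inc H k (crd H k v) + w := by simp [hw]
  have o1 : ⟪inc H k (y (crd H k v)), x w⟫_ℂ = 0 := by rw [inner_inc_left, hxw, inner_zero_right]
  have o2 : ⟪inc H k (crd H k v), w⟫_ℂ = 0 := by rw [inner_inc_left, hw0, inner_zero_right]
  have s1 := norm_add_sq_eq_norm_sq_add_norm_sq_of_inner_eq_zero _ _ o1
  have s2 := norm_add_sq_eq_norm_sq_add_norm_sq_of_inner_eq_zero _ _ o2
  rw [← e] at s1
  rw [← ev] at s2
  rw [norm_inc] at s1 s2
  have b1 : ‖y (crd H k v)‖ ≤ ‖crd H k v‖ := (y.le_opNorm _).trans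
    (mul_le_of_le_one_left (norm_nonneg _) hy)
  have b2 : ‖x w‖ ≤ ‖w‖ := (x.le_opNorm _).trans (mul_le_of_le_one_left (norm_nonneg _) hx)
  nlinarith [norm_nonneg ((x + emb k (y - blk k x)) v), norm_nonneg v, norm_nonneg (x w),
    norm_nonneg (y (crd H k v))]

/-- The unit ball of a von Neumann algebra. -/
def unitBall {K : Type u} [NormedAddCommGroup K] [InnerProductSpace ℂ K] [CompleteSpace K]
    (M : VonNeumannAlgebra K) : Set (K →L[ℂ] K) :=
  (M : Set (K →L[ℂ] K)) ∩ Metric.closedBall 0 1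

/-- Approximations in one block give approximations in the direct sum. -/
lemma exists_near {A B : ∀ k, VonNeumannAlgebra (H k)} {k : ℕ} (hoff : ∀ j, j ≠ k → A j = B j)
    {r : ℝ} (h : ∀ a ∈ unitBall (A k), ∃ b ∈ unitBall (B k), dist a b ≤ r) :
    ∀ x ∈ unitBall (dsum A), ∃ y ∈ unitBall (dsum B), dist x y ≤ r := by
  rintro x ⟨hx, hx1⟩
  rw [mem_closedBall_zero_iff] at hx1
  have hx' := mem_dsum.1 hx
  obtain ⟨b, ⟨hb, hb1⟩, hd⟩ := h (blk k x)
    ⟨(hx' k).2, mem_closedBall_zero_iff.2 ((norm_blk_le k x).trans hx1)⟩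
  rw [mem_closedBall_zero_iff] at hb1
  refine ⟨x + emb k (b - blk k x), ⟨?_, mem_closedBall_zero_iff.2
    (norm_replace_le (hx' k).1 hx1 hb1)⟩, ?_⟩
  · refine mem_dsum.2 fun j => ⟨(hx' j).1.add_right (commute_proj_emb j k _), ?_⟩
    rw [blk_add]
    rcases eq_or_ne j k with rfl | hj
    · rw [blk_emb_self, add_sub_cancel]; exact hb
    · rw [blk_emb_ne hj, add_zero, ← hoff j hj]; exact (hx' j).2
  · rw [dist_eq_norm, sub_add_cancel_left, norm_neg]
    refine (norm_emb_le k _).trans ?_
    rwa [norm_sub_rev, ← dist_eq_norm]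

lemma kkDist_dsum_update_le (M : ∀ k, VonNeumannAlgebra (H k)) (k : ℕ)
    (N : VonNeumannAlgebra (H k)) {r : ℝ} (h : kkDist (M k) N < r) :
    kkDist (dsum M) (dsum (Function.update M k N)) ≤ r := by
  have hr : 0 ≤ r := Metric.hausdorffDist_nonneg.trans h.le
  have fin : Metric.hausdorffEDist (unitBall (M k)) (unitBall N) ≠ ⊤ :=
    Metric.hausdorffEDist_ne_top_of_nonempty_of_bounded
      ⟨0, zero_mem (M k), by simp⟩ ⟨0, zero_mem N, by simp⟩
      (Metric.isBounded_closedBall.subset Set.inter_subset_right)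
      (Metric.isBounded_closedBall.subset Set.inter_subset_right)
  refine Metric.hausdorffDist_le_of_mem_dist hr ?_ ?_
  · refine exists_near (k := k) (fun j hj => (Function.update_of_ne hj N M).symm) ?_
    rw [Function.update_self]
    intro a ha
    obtain ⟨b, hb, hd⟩ := Metric.exists_dist_lt_of_hausdorffDist_lt ha h fin
    exact ⟨b, hb, hd.le⟩
  · refine exists_near (k := k) (fun j hj => Function.update_of_ne hj N M) ?_
    rw [Function.update_self]
    intro a ha
    obtain ⟨b, hb, hd⟩ := Metric.exists_dist_lt_of_hausdorffDist_lt' ha h fin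
    exact ⟨b, hb, by rw [dist_comm]; exact hd.le⟩

/-- Commuting projections at distance less than one are equal. -/
lemma eq_of_commute_idempotent {A : Type*} [NormedRing A] {p e : A} (hp : p * p = p)
    (he : e * e = e) (hc : Commute p e) (hd : ‖p - e‖ < 1) : p = e := by
  have h3 : (p - e) * (p - e) * (p - e) = p - e := by
    have h1 : e * p = p * e := hc.eq.symm
    have h2 : p * e * p = p * e := by rw [mul_assoc, h1, ← mul_assoc, hp]
    have h4 : p * e * e = p * e := by rw [mul_assoc, he]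
    simp only [mul_sub, sub_mul, hp, he, h1, h2, h4]
    abel
  have hle : ‖p - e‖ ≤ ‖p - e‖ * ‖p - e‖ * ‖p - e‖ := by
    conv_lhs => rw [← h3]
    exact norm_mul₃_le
  by_contra hne
  have hpos : 0 < ‖p - e‖ := norm_pos_iff.2 (sub_ne_zero.2 hne)
  nlinarith [mul_lt_mul'' hd hd hpos.le hpos.le]

/-- A unitary near the identity implementing the direct sums implements the changed block. -/
lemma nearConjugate_block {M : ∀ k, VonNeumannAlgebra (H k)} {k : ℕ}
    {N : VonNeumannAlgebra (H k)} {ε : ℝ} (hε : ε ≤ 1 / 2)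
    (h : NearConjugate ε (dsum M) (dsum (Function.update M k N))) : NearConjugate ε (M k) N := by
  obtain ⟨w, hw, hw1, himg⟩ := h
  have hsw : star w * w = 1 := Unitary.star_mul_self_of_mem hw
  have hws : w * star w = 1 := Unitary.mul_star_self_of_mem hw
  set p := proj H k with hp
  have hpp : p * p = p := by ext1 v; simp [hp, proj_apply, crd_inc_self]
  have hq : w * p * star w ∈ dsum (Function.update M k N) := by
    rw [← SetLike.mem_coe, ← himg]
    exact ⟨p, by rw [SetLike.mem_coe, hp, proj_eq_emb]; exact emb_mem_dsum (one_mem _), rfl⟩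
  have hqq : w * p * star w * (w * p * star w) = w * p * star w := by
    calc w * p * star w * (w * p * star w) = w * (p * ((star w * w) * p)) * star w := by
          simp only [mul_assoc]
      _ = w * p * star w := by rw [hsw, one_mul, hpp]
  have hnorm : ‖p‖ ≤ 1 := by
    rw [hp, proj_eq_emb]
    exact (norm_emb_le k _).trans norm_id_le
  have hd : ‖w * p * star w - p‖ < 1 := by
    have e : w * p * star w - p = (w - 1) * (p * star w) + p * star (w - 1) := by
      rw [star_sub, star_one]; noncomm_ring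
    have hsn : ‖star w‖ ≤ 1 := by
      rw [norm_star]
      exact opNorm_le_bound _ zero_le_one fun v => by
        rw [Unitary.norm_map ⟨w, hw⟩ v, one_mul]
    rw [e]
    calc ‖(w - 1) * (p * star w) + p * star (w - 1)‖
        ≤ ‖w - 1‖ * (‖p‖ * ‖star w‖) + ‖p‖ * ‖star (w - 1)‖ :=
          (norm_add_le _ _).trans (add_le_add ((norm_mul_le _ _).trans
            (mul_le_mul_of_nonneg_left (norm_mul_le _ _) (norm_nonneg _))) (norm_mul_le _ _))
      _ ≤ ‖w - 1‖ * (1 * 1) + 1 * ‖w - 1‖ := by
          rw [norm_star (w - 1)]; gcongr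
      _ < 1 := by linarith
  have hfix : w * p * star w = p :=
    eq_of_commute_idempotent hqq hpp ((mem_dsum.1 hq k).1.symm) hd
  have hcw : Commute p w := by
    show p * w = w * p
    conv_lhs => rw [← hfix]
    rw [mul_assoc (w * p), hsw, mul_one]
  have hcs : Commute p (star w) := by
    have := hcw.star_star
    rwa [hp, star_proj] at this
  refine ⟨blk k w, ⟨?_, ?_⟩, ?_, ?_⟩
  · rw [← blk_star, ← blk_mul_left hcs, hsw, blk_one]
  · rw [← blk_star, ← blk_mul_left hcw, hws, blk_one]
  · rw [← blk_one (H := H), ← blk_sub]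
    exact lt_of_le_of_lt (norm_blk_le k _) hw1
  · have key : ∀ X, blk k (w * X * star w) = blk k w * blk k X * star (blk k w) := fun X => by
      rw [blk_mul_right hcs, blk_mul_left hcw, blk_star]
    apply Set.Subset.antisymm
    · rintro _ ⟨a, ha, rfl⟩
      have hm : w * emb k a * star w ∈ dsum (Function.update M k N) := by
        rw [← SetLike.mem_coe, ← himg]; exact ⟨_, emb_mem_dsum ha, rfl⟩
      have := (mem_dsum.1 hm k).2
      rw [Function.update_self, key, blk_emb_self] at this
      exact this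
    · intro b hb
      have hm : emb k b ∈ dsum (Function.update M k N) := by
        refine emb_mem_dsum ?_
        rwa [Function.update_self]
      rw [← SetLike.mem_coe, ← himg] at hm
      obtain ⟨X, hX, hXb⟩ := hm
      refine ⟨blk k X, (mem_dsum.1 hX k).2, ?_⟩
      simp only
      rw [← key]
      simp only at hXb
      rw [hXb, blk_emb_self]

/-- The core amplification. -/
lemma exists_bad_algebra {ε : ℝ} (hε : 0 < ε) (M N : ∀ k, VonNeumannAlgebra (H k))
    (hd : ∀ k, kkDist (M k) (N k) < 1 / ((k : ℝ) + 1))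
    (hbad : ∀ k, ¬ NearConjugate ε (M k) (N k)) {δ : ℝ} (hδ : 0 < δ) :
    ∃ B : VonNeumannAlgebra (HSum H),
      kkDist (dsum M) B < δ ∧ ¬ NearConjugate (min ε (1 / 2)) (dsum M) B := by
  obtain ⟨k, hk⟩ := exists_nat_one_div_lt hδ
  refine ⟨dsum (Function.update M k (N k)),
    (kkDist_dsum_update_le M k (N k) (hd k)).trans_lt hk, fun hn => hbad k ?_⟩
  obtain ⟨w, hw, hw1, himg⟩ := nearConjugate_block (min_le_right _ _) hn
  exact ⟨w, hw, hw1.trans_le (min_le_left _ _), himg⟩

/-- The two forms of the conjecture are equivalent. -/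
theorem uniform_iff_perAlgebra :
    (UniformKK.{u} ↔ PerAlgebraKK.{u}) ∧ (UniformKKSep.{u} ↔ PerAlgebraKKSep.{u}) := by
  refine ⟨⟨fun h ε hε H _ _ _ M => ?_, fun h => ?_⟩,
    ⟨fun h ε hε H _ _ _ _ M => ?_, fun h => ?_⟩⟩
  · obtain ⟨δ, hδ, hδ'⟩ := h ε hε
    exact ⟨δ, hδ, fun N => hδ' H M N⟩
  · intro ε hε
    by_contra hc
    push Not at hc
    choose H i1 i2 i3 M N hd hbad using fun k : ℕ => hc (1 / ((k : ℝ) + 1)) (by positivity)
    obtain ⟨δ, hδ, hδ'⟩ := h (min ε (1 / 2)) (lt_min hε (by norm_num)) (HSum H) (dsum M)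
    obtain ⟨B, hB, hB'⟩ := exists_bad_algebra hε M N hd hbad hδ
    exact hB' (hδ' B hB)
  · obtain ⟨δ, hδ, hδ'⟩ := h ε hε
    exact ⟨δ, hδ, fun N => hδ' H M N⟩
  · intro ε hε
    by_contra hc
    push Not at hc
    choose H i1 i2 i3 i4 M N hd hbad using fun k : ℕ => hc (1 / ((k : ℝ) + 1)) (by positivity)
    haveI := separableSpace_hsum (H := H)
    obtain ⟨δ, hδ, hδ'⟩ := h (min ε (1 / 2)) (lt_min hε (by norm_num)) (HSum H) (dsum M)
    obtain ⟨B, hB, hB'⟩ := exists_bad_algebra hε M N hd hbad hδ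
    exact hB' (hδ' B hB)

end Vale.Agent.P096
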